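import Vale.Agent.P050.O.H694.Blocks

set_option linter.all false

/-!
Kernels which join each class of points to one class only and are close to kernels of rank one
between the classes.
-/

open Finset

namespace Vale.Agent.P050.Opt.H694

open Vale.Agent.P050 Vale.Agent.P050.Dense

/-- the row sum inside a block -/
theorem row_block {X ι : Type} [Fintype X] [DecidableEq ι] (W : X → X → ℝ) (b : X → ι)
    (hb : ∀ x y, b x ≠ b y → W x y = 0) (i : ι) (x : {x // b x = i}) :
    ∑ y : {x // b x = i}, W x.1 y.1 = ∑ y, W x.1 y := by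
  classical
  have h1 : ∑ y, W x.1 y = ∑ y ∈ univ.filter (fun y => b y = i), W x.1 y := by
    rw [Finset.sum_filter]
    refine Finset.sum_congr rfl fun y _ => ?_
    by_cases hy : b y = i
    · rw [if_pos hy]
    · rw [if_neg hy]
      exact hb _ _ (by rw [x.2]; exact fun h' => hy h'.symm)
  rw [h1]
  exact (Finset.sum_subtype _ (fun x => by simp) _).symm

/-- both sides have half of the total -/
theorem half_sum {Y : Type} [Fintype Y] (side : Y → Bool) (K : Y → Y → ℝ)
    (hs : ∀ x y, K x y = K y x) (hz : ∀ x y, side x = side y → K x y = 0) (β : Bool) :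
    ∑ a ∈ univ.filter (fun a => side a = β), ∑ c, K a c = (∑ a, ∑ c, K a c) / 2 := by
  have h8 : ∀ β : Bool, ∑ a ∈ univ.filter (fun a => side a = β), ∑ c, K a c =
      ∑ a ∈ univ.filter (fun a => side a = β),
        ∑ c ∈ univ.filter (fun c => side c = !β), K a c := by
    intro β
    refine Finset.sum_congr rfl fun a ha => ?_
    rw [Finset.sum_filter]
    refine Finset.sum_congr rfl fun c _ => ?_
    by_cases hc' : side c = !β
    · rw [if_pos hc']
    · rw [if_neg hc']
      apply hz
      rw [(Finset.mem_filter.1 ha).2]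
      cases h9 : side c <;> cases β
      · rfl
      · exact absurd h9 hc'
      · exact absurd h9 hc'
      · rfl
  have h7 : ∑ a ∈ univ.filter (fun a => side a = true), ∑ c, K a c =
      ∑ a ∈ univ.filter (fun a => side a = false), ∑ c, K a c := by
    rw [h8 true, h8 false, Finset.sum_comm]
    exact Finset.sum_congr rfl fun a _ => Finset.sum_congr rfl fun c _ => hs _ _
  have h10 : ∑ a, ∑ c, K a c =
      ∑ a ∈ univ.filter (fun a => side a = true), ∑ c, K a c +
      ∑ a ∈ univ.filter (fun a => side a = false), ∑ c, K a c := by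
    rw [← Finset.sum_filter_add_sum_filter_not univ (fun a => side a = true)]
    congr 1
    refine Finset.sum_congr (Finset.filter_congr fun a _ => ?_) fun _ _ => rfl
    cases side a <;> simp
  cases β
  · rw [h10, h7]
    ring
  · rw [h10, ← h7]
    ring

/-- positive rows -/
theorem class_pos {V X κ : Type} [Fintype V] [DecidableEq V] [Fintype X] [Nonempty X]
    [DecidableEq κ] (H : SimpleGraph V) [DecidableRel H.Adj] (hH : H.IsBipartite)
    (hc : H.Connected) {D : ℕ} (hD : 1 ≤ D) (hcl : CLIneq D H) {η : ℝ} (hη0 : 0 ≤ η)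
    (hη : 3 * 10 ^ 13 * (D:ℝ) * η ≤ 1) (W : X → X → ℝ) (hs : ∀ x y, W x y = W y x)
    (h0 : ∀ x y, 0 ≤ W x y) (hrow : ∀ x, 0 < ∑ y, W x y) (C : X → κ)
    (h2 : ∀ x x1 y y1, C x = C x1 → W x y ≠ 0 → W x1 y1 ≠ 0 → C y = C y1)
    (h3 : ∀ x y, W x y * (∑ a ∈ univ.filter (fun a => C a = C x), ∑ c, W a c) ≤
      (1 + η) * ((∑ c, W x c) * ∑ c, W y c)) :
    pden W ^ H.edgeFinset.card ≤ tden H W hs := by
  classical
  have hnb : ∀ x, ∃ y, W x y ≠ 0 := by
    intro x
    obtain ⟨y, -, hy⟩ := Finset.exists_ne_zero_of_sum_ne_zero (hrow x).ne'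
    exact ⟨y, hy⟩
  choose nb hnb' using hnb
  let b : X → Sym2 κ := fun x => s(C x, C (nb x))
  have hbx : ∀ x y, W x y ≠ 0 → C y = C (nb x) := fun x y h =>
    h2 x x y (nb x) rfl h (hnb' x)
  have hb : ∀ x y, b x ≠ b y → W x y = 0 := by
    intro x y hxy
    by_contra hne
    apply hxy
    have e1 := hbx x y hne
    have e2 := hbx y x (by rw [hs]; exact hne)
    show s(C x, C (nb x)) = s(C y, C (nb y))
    rw [← e1, ← e2]
    exact Sym2.eq_swap
  refine tden_of_blocks H hc W hs h0 b hb fun i hi => ?_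
  obtain ⟨x0⟩ := hi
  have hD' : (1:ℝ) ≤ D := by exact_mod_cast hD
  set Wi : {x // b x = i} → {x // b x = i} → ℝ := fun x y => W x.1 y.1 with hWi
  have hsi : ∀ x y, Wi x y = Wi y x := fun x y => hs _ _
  have h0i : ∀ x y, 0 ≤ Wi x y := fun x y => h0 _ _
  have hrowi : ∀ x, ∑ y, Wi x y = ∑ y, W x.1 y := fun x => row_block W b hb i x
  -- the classes of the block
  have hcls : ∀ x : {x // b x = i}, (C x.1 = C x0.1 ∧ C (nb x.1) = C (nb x0.1)) ∨
      (C x.1 = C (nb x0.1) ∧ C (nb x.1) = C x0.1) := by
    intro x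
    have h4 : s(C x.1, C (nb x.1)) = s(C x0.1, C (nb x0.1)) := x.2.trans x0.2.symm
    rcases Sym2.eq_iff.1 h4 with h5 | h5
    · exact Or.inl h5
    · exact Or.inr h5
  -- a point with the class of a point of the block is in the block
  have hmem : ∀ x : {x // b x = i}, ∀ a, C a = C x.1 → b a = i := by
    intro x a ha
    have h4 : C (nb a) = C (nb x.1) := h2 a x.1 _ _ ha (hnb' a) (hnb' x.1)
    rw [← x.2]
    show s(C a, C (nb a)) = s(C x.1, C (nb x.1))
    rw [ha, h4]
  -- sums over the classes inside the block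
  have hsum : ∀ x : {x // b x = i}, ∑ a ∈ univ.filter (fun a => C a = C x.1), ∑ c, W a c =
      ∑ a ∈ univ.filter (fun a : {x // b x = i} => C a.1 = C x.1), ∑ c, Wi a c := by
    intro x
    symm
    refine Finset.sum_of_injOn (fun a => a.1) ?_ ?_ ?_ ?_
    · intro a _ a' _ h
      exact Subtype.ext h
    · intro a ha
      exact Finset.mem_coe.2 (Finset.mem_filter.2 ⟨Finset.mem_univ _,
        (Finset.mem_filter.1 (Finset.mem_coe.1 ha)).2⟩)
    · intro a ha ha'
      exfalso
      apply ha'
      have h4 := (Finset.mem_filter.1 ha).2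
      rw [Set.mem_image]
      exact ⟨⟨a, hmem x a h4⟩, Finset.mem_coe.2 (Finset.mem_filter.2 ⟨Finset.mem_univ _, h4⟩),
        rfl⟩
    · intro a _
      exact hrowi a
  by_cases hcase : C x0.1 = C (nb x0.1)
  · -- one class
    have hall : ∀ a x : {x // b x = i}, C a.1 = C x.1 := by
      have h4 : ∀ x : {x // b x = i}, C x.1 = C x0.1 := by
        intro x
        rcases hcls x with h5 | h5
        · exact h5.1
        · rw [h5.1, hcase]
      intro a x
      rw [h4 a, h4 x]
    have hNe : Nonempty {x // b x = i} := ⟨x0⟩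
    refine CLIneq.all hcl (η := η) hη0 ?_ Wi hsi h0i fun x y => ?_
    · have h5 : 10 ^ 13 * (D:ℝ) * η ≤ 3 * 10 ^ 13 * (D:ℝ) * η := by
        have : 0 ≤ 10 ^ 13 * (D:ℝ) * η := by positivity
        linarith
      exact h5.trans hη
    · have h5 := h3 x.1 y.1
      rw [hsum x, Finset.filter_true_of_mem fun a _ => hall a x] at h5
      rw [hrowi x, hrowi y]
      exact h5
  · -- two classes
    let side : {x // b x = i} → Bool := fun x => decide (C x.1 = C x0.1)
    have hside : ∀ x y : {x // b x = i}, Wi x y ≠ 0 → side x ≠ side y := by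
      intro x y hxy
      have e1 : C y.1 = C (nb x.1) := hbx x.1 y.1 hxy
      show decide (C x.1 = C x0.1) ≠ decide (C y.1 = C x0.1)
      rcases hcls x with h5 | h5
      · rw [decide_eq_true h5.1, decide_eq_false (by rw [e1, h5.2]; exact fun h => hcase h.symm)]
        simp
      · rw [decide_eq_true (by rw [e1, h5.2] : C y.1 = C x0.1),
          decide_eq_false (by rw [h5.1]; exact fun h => hcase h.symm)]
        simp
    have hz : ∀ x y, side x = side y → Wi x y = 0 := by
      intro x y hxy
      by_contra hne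
      exact hside x y hne hxy
    -- both sides have half of the total
    have hcs : ∀ a x : {x // b x = i}, C a.1 = C x.1 ↔ side a = side x := by
      intro a x
      show C a.1 = C x.1 ↔ decide (C a.1 = C x0.1) = decide (C x.1 = C x0.1)
      have hne : C (nb x0.1) ≠ C x0.1 := fun h => hcase h.symm
      rcases hcls a with h5 | h5 <;> rcases hcls x with h6 | h6
      · rw [h5.1, h6.1]
        simp
      · rw [h5.1, h6.1]
        simp [hne, hcase]
      · rw [h5.1, h6.1]
        simp [hne]
      · rw [h5.1, h6.1]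
        simp
    have hhalf : ∀ β : Bool, ∑ a ∈ univ.filter (fun a : {x // b x = i} => side a = β),
        ∑ c, Wi a c = (∑ a, ∑ c, Wi a c) / 2 := half_sum side Wi hsi hz
    have hNe : Nonempty {x // b x = i} := ⟨x0⟩
    refine CLIneq.bip hH hcl hD hη0 hη side Wi hsi h0i hz fun x y => ?_
    have h5 := h3 x.1 y.1
    have h11 : (univ.filter (fun a : {x // b x = i} => C a.1 = C x.1)) =
        univ.filter (fun a : {x // b x = i} => side a = side x) :=
      Finset.filter_congr fun a _ => hcs a x
    rw [hsum x, h11, hhalf (side x)] at h5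
    rw [hrowi x, hrowi y]
    exact h5

/-- **Classes.** `H` bipartite, connected, with the inequality for kernels close to rank one.
The kernel `W` joins each class of `C` to one class only and is close to a kernel of rank one
between these. -/
theorem class_ineq {V X κ : Type} [Fintype V] [DecidableEq V] [Fintype X] [DecidableEq X]
    [Nonempty X] [DecidableEq κ] (H : SimpleGraph V) [DecidableRel H.Adj]
    (hH : H.IsBipartite) (hc : H.Connected) {D : ℕ} (hD : 1 ≤ D) (hcl : CLIneq D H) {η : ℝ}
    (hη0 : 0 ≤ η) (hη : 3 * 10 ^ 13 * (D:ℝ) * η ≤ 1) (W : X → X → ℝ)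
    (hs : ∀ x y, W x y = W y x) (h0 : ∀ x y, 0 ≤ W x y) (C : X → κ)
    (h2 : ∀ x x1 y y1, C x = C x1 → W x y ≠ 0 → W x1 y1 ≠ 0 → C y = C y1)
    (h3 : ∀ x y, W x y * (∑ a ∈ univ.filter (fun a => C a = C x), ∑ c, W a c) ≤
      (1 + η) * ((∑ c, W x c) * ∑ c, W y c)) :
    pden W ^ H.edgeFinset.card ≤ tden H W hs := by
  classical
  refine H322.pos_rows H W hs h0 fun hN => ?_
  refine class_pos H hH hc hD hcl hη0 hη (H322.rst W) (H322.rst_symm hs) (fun x y => h0 _ _)
    (fun x => ?_) (fun x => C x.1) (fun x x1 y y1 h h' h'' => h2 _ _ _ _ h h' h'')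
    fun x y => ?_
  · rw [H322.sum_rst_row hs h0]
    exact x.2
  · rw [H322.sum_rst_row hs h0, H322.sum_rst_row hs h0]
    have h4 : ∑ a ∈ univ.filter (fun a : H322.Ps W => C a.1 = C x.1), ∑ c, H322.rst W a c =
        ∑ a ∈ univ.filter (fun a => C a = C x.1), ∑ c, W a c := by
      rw [Finset.sum_filter, Finset.sum_filter, H322.sum_Ps (W := W)
        (fun a => if C a = C x.1 then ∑ c, W a c else 0) fun a ha => by
          rw [Finset.sum_eq_zero fun c _ => H322.eq_zero_of_row h0 ha c, ite_self]]
      refine Finset.sum_congr rfl fun a _ => ?_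
      rw [H322.sum_rst_row hs h0]
    rw [h4]
    exact h3 x.1 y.1

end Vale.Agent.P050.Opt.H694
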