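import Vale.Agent.P050.O.H300.EntDefs

set_option linter.all false

/-!
The total weight of a forest is `1`.
-/

open MeasureTheory Finset

namespace Vale.Agent.P050.Opt

open Vale.Agent.P050 Vale.Agent.P050.Dense

namespace H694

/-- a finite acyclic graph with an edge has a leaf -/
lemma exists_leaf {V : Type*} [Finite V] {H : SimpleGraph V} (hH : H.IsAcyclic)
    (h : ∃ a b, H.Adj a b) : ∃ v u, H.Adj v u ∧ ∀ x, H.Adj v x → x = u := by
  classical
  haveI := Fintype.ofFinite V
  by_contra hno
  have hno' : ∀ v u, H.Adj v u → ∃ x, H.Adj v x ∧ x ≠ u := by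
    intro v u hvu
    by_contra hx
    exact hno ⟨v, u, hvu, fun x hx' => by
      by_contra hne
      exact hx ⟨x, hx', hne⟩⟩
  have key : ∀ n : ℕ, ∃ a b, ∃ p : H.Walk a b, p.IsPath ∧ p.length = n + 1 := by
    intro n
    induction n with
    | zero =>
      obtain ⟨a, b, hab⟩ := h
      exact ⟨a, b, SimpleGraph.Walk.cons hab SimpleGraph.Walk.nil, by
        simp [SimpleGraph.Walk.cons_isPath_iff, hab.ne], by simp⟩
    | succ n ih =>
      obtain ⟨a, b, p, hp, hl⟩ := ih
      have hnil : ¬ p.Nil := by
        intro hn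
        have := SimpleGraph.Walk.nil_iff_length_eq.1 hn
        omega
      have hadj : H.Adj b p.penultimate := (p.adj_penultimate hnil).symm
      obtain ⟨x, hx, hxne⟩ := hno' b _ hadj
      have hxs : x ∉ p.support := by
        intro hxs
        exact hxne (hH.eq_penultimate_of_adj_end hp hx hxs)
      exact ⟨a, x, p.concat hx, hp.concat hxs hx, by simp [hl]⟩
  obtain ⟨a, b, p, hp, hl⟩ := key (Fintype.card V)
  have := hp.length_lt
  omega

section

variable {V : Type*} [Fintype V] [DecidableEq V] {Ω : Type*} [Fintype Ω] [DecidableEq Ω]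

/-- averaging over one vertex -/
lemma sum_update (v : V) (F : (V → Ω) → ℝ) {w : Ω → ℝ} (hw : ∑ s, w s = 1) :
    ∑ z, F z = ∑ z : V → Ω, w (z v) * ∑ s, F (Function.update z v s) := by
  have hinv : Function.Involutive (fun p : (V → Ω) × Ω => (Function.update p.1 v p.2, p.1 v)) := by
    rintro ⟨z, s⟩
    simp
  calc ∑ z, F z = ∑ z, ∑ s, w s * F z := by
        refine Finset.sum_congr rfl fun z _ => ?_
        rw [← Finset.sum_mul, hw, one_mul]
    _ = ∑ p : (V → Ω) × Ω, w p.2 * F p.1 := by
        rw [Fintype.sum_prod_type]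
    _ = ∑ p : (V → Ω) × Ω, w (p.1 v) * F (Function.update p.1 v p.2) :=
        (Fintype.sum_equiv hinv.toPerm _ _ fun p => rfl).symm
    _ = ∑ z : V → Ω, w (z v) * ∑ s, F (Function.update z v s) := by
        rw [Fintype.sum_prod_type]
        refine Finset.sum_congr rfl fun z _ => ?_
        rw [Finset.mul_sum]

lemma sum_prod_w {w : Ω → ℝ} (hw : ∑ s, w s = 1) : ∑ z : V → Ω, ∏ v, w (z v) = 1 := by
  have h := Finset.prod_univ_sum (fun _ : V => (univ : Finset Ω)) (fun _ s => w s)
  rw [Fintype.piFinset_univ] at h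
  rw [← h]
  simp [hw]

/-- the weight with an arbitrary set of edges -/
lemma mH_eq (H : SimpleGraph V) (w : Ω → ℝ) (U : Sym2 Ω → ℝ) (z : V → Ω) (E : Finset (Sym2 V))
    (hE : ∀ e, e ∈ E ↔ e ∈ H.edgeSet) :
    mH H w U z = (∏ v, w (z v)) * ∏ e ∈ E, (1 + U (e.map z)) := by
  classical
  unfold mH
  congr 1
  refine Finset.prod_congr ?_ fun _ _ => rfl
  ext e
  rw [SimpleGraph.mem_edgeFinset, hE]

lemma sum_step {H : SimpleGraph V} {w : Ω → ℝ} {U : Sym2 Ω → ℝ} (hw : Wt w U) {v u : V}
    (hvu : H.Adj v u) (hleaf : ∀ x, H.Adj v x → x = u) :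
    ∑ z : V → Ω, mH H w U z = ∑ z : V → Ω, mH (H.deleteEdges {s(v, u)}) w U z := by
  classical
  set E : Finset (Sym2 V) := (Set.toFinite (H.deleteEdges {s(v, u)}).edgeSet).toFinset with hEdef
  have hE : ∀ e, e ∈ E ↔ e ∈ (H.deleteEdges {s(v, u)}).edgeSet := by
    intro e
    simp [hEdef]
  have hne : s(v, u) ∉ E := by
    rw [hE, SimpleGraph.edgeSet_deleteEdges]
    simp
  have hE' : ∀ e, e ∈ insert s(v, u) E ↔ e ∈ H.edgeSet := by
    intro e
    rw [Finset.mem_insert, hE, SimpleGraph.edgeSet_deleteEdges]
    constructor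
    · rintro (rfl | h)
      · exact hvu
      · exact h.1
    · intro h
      by_cases h' : e = s(v, u)
      · exact Or.inl h'
      · exact Or.inr ⟨h, by simpa using h'⟩
  have hv : ∀ e ∈ E, v ∉ e := by
    intro e he hve
    rw [hE, SimpleGraph.edgeSet_deleteEdges] at he
    obtain ⟨x, rfl⟩ := hve
    have hx : x = u := hleaf x he.1
    subst hx
    exact he.2 (by simp)
  have hpt : ∀ z : V → Ω, mH H w U z = mH (H.deleteEdges {s(v, u)}) w U z
      + (∏ x, w (z x)) * (∏ e ∈ E, (1 + U (e.map z))) * U s(z v, z u) := by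
    intro z
    rw [mH_eq H w U z _ hE', mH_eq _ w U z _ hE, Finset.prod_insert hne]
    simp only [Sym2.map_mk]
    ring
  rw [Finset.sum_congr rfl fun z _ => hpt z, Finset.sum_add_distrib, add_eq_left,
    sum_update v _ hw.sum]
  refine Finset.sum_eq_zero fun z _ => ?_
  have hin : ∀ s : Ω, (∏ x, w (Function.update z v s x)) *
      (∏ e ∈ E, (1 + U (e.map (Function.update z v s)))) *
      U s(Function.update z v s v, Function.update z v s u)
      = ((∏ x ∈ univ.erase v, w (z x)) * ∏ e ∈ E, (1 + U (e.map z))) *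
        (w s * U s(z u, s)) := by
    intro s
    have h1 : ∏ x, w (Function.update z v s x) = w s * ∏ x ∈ univ.erase v, w (z x) := by
      rw [← Finset.mul_prod_erase univ _ (Finset.mem_univ v), Function.update_self]
      congr 1
      refine Finset.prod_congr rfl fun x hx => ?_
      rw [Function.update_of_ne (Finset.ne_of_mem_erase hx)]
    have h2 : ∏ e ∈ E, (1 + U (e.map (Function.update z v s)))
        = ∏ e ∈ E, (1 + U (e.map z)) := by
      refine Finset.prod_congr rfl fun e he => ?_
      have : e.map (Function.update z v s) = e.map z := by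
        refine Sym2.map_congr fun x hx => ?_
        rw [Function.update_of_ne]
        rintro rfl
        exact hv e he hx
      rw [this]
    rw [h1, h2, Function.update_self, Function.update_of_ne hvu.ne', Sym2.eq_swap]
    ring
  rw [Finset.sum_congr rfl fun s _ => hin s, ← Finset.mul_sum, hw.marg, mul_zero, mul_zero]

end

end H694

/-- the total weight of a forest is `1` -/
theorem sum_mH_forest {V : Type*} [Fintype V] [DecidableEq V] {Ω : Type*} [Fintype Ω]
    [DecidableEq Ω] {H : SimpleGraph V} (hH : H.IsAcyclic) {w : Ω → ℝ} {U : Sym2 Ω → ℝ}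
    (hw : Wt w U) : ∑ z : V → Ω, mH H w U z = 1 := by
  classical
  have key : ∀ n : ℕ, ∀ H : SimpleGraph V, H.IsAcyclic → H.edgeSet.ncard = n →
      ∑ z : V → Ω, mH H w U z = 1 := by
    intro n
    induction n using Nat.strong_induction_on with
    | _ n ih =>
      intro H hH hn
      by_cases h : ∃ a b, H.Adj a b
      · obtain ⟨v, u, hvu, hleaf⟩ := H694.exists_leaf hH h
        rw [H694.sum_step hw hvu hleaf]
        have hlt : (H.deleteEdges {s(v, u)}).edgeSet.ncard < n := by
          rw [← hn]
          refine Set.ncard_lt_ncard ⟨?_, ?_⟩ (Set.toFinite _)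
          · exact SimpleGraph.edgeSet_mono (SimpleGraph.deleteEdges_le _)
          · intro hsub
            have := hsub (a := s(v, u)) hvu
            rw [SimpleGraph.edgeSet_deleteEdges] at this
            exact this.2 (by simp)
        exact ih _ hlt _ (hH.anti (SimpleGraph.deleteEdges_le _)) rfl
      · have hempty : ∀ z : V → Ω, mH H w U z = ∏ v, w (z v) := by
          intro z
          rw [H694.mH_eq H w U z ∅]
          · simp
          · intro e
            simp only [Finset.notMem_empty, false_iff]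
            induction e using Sym2.ind with
            | _ a b => exact fun hab => h ⟨a, b, hab⟩
        rw [Finset.sum_congr rfl fun z _ => hempty z]
        exact H694.sum_prod_w hw.sum
  exact key _ H hH rfl

end Vale.Agent.P050.Opt
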