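import Vale.Agent.P050.O.H322.PosRows
import Vale.Agent.P050.O.H612.SidAll

set_option linter.all false

/-!
Kernels which are block diagonal, with blocks dominated by a kernel of rank one.
-/

open MeasureTheory Finset

namespace Vale.Agent.P050.Opt

open Vale.Agent.P050 Vale.Agent.P050.Dense

namespace H694

/-- sums over a class of the points with a nonzero row -/
theorem sum_filter_Ps {X ι : Type} [Fintype X] [DecidableEq ι] {W : X → X → ℝ} (b : X → ι)
    (i : ι) (f : X → ℝ) (hf : ∀ x, ¬ 0 < ∑ y, W x y → f x = 0) :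
    ∑ x ∈ univ.filter (fun x : H322.Ps W => b x.1 = i), f x.1 =
      ∑ x ∈ univ.filter (fun x => b x = i), f x := by
  rw [Finset.sum_filter, Finset.sum_filter]
  exact (H322.sum_Ps (W := W) (fun x => if b x = i then f x else 0) fun x hx => by
    rw [hf x hx, ite_self]).symm

/-- in a block diagonal kernel the degree only sees the block -/
theorem dgr_block {X ι : Type} [Fintype X] [DecidableEq ι] {W : X → X → ℝ} (b : X → ι)
    (hb : ∀ x y, b x ≠ b y → W x y = 0) (i : ι) (a : X) (ha : b a = i) :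
    Vale.Agent.P050.R2.H111.dgr W a = ∑ c ∈ univ.filter (fun c => b c = i), W a c := by
  unfold Vale.Agent.P050.R2.H111.dgr
  rw [Finset.sum_filter]
  refine Finset.sum_congr rfl fun c _ => ?_
  by_cases h : b c = i
  · rw [if_pos h]
  · rw [if_neg h]
    exact hb a c (by rw [ha]; exact fun h' => h h'.symm)

/-- positive rows -/
theorem block_pos {V X ι : Type} [Fintype V] [DecidableEq V] [Fintype X] [DecidableEq X]
    [Nonempty X] [Fintype ι] [DecidableEq ι] (H : SimpleGraph V) [DecidableRel H.Adj] {η : ℝ}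
    (h6 : ∀ {Ω ι : Type} [Fintype Ω] [DecidableEq Ω] [Fintype ι] [DecidableEq ι] {w : Ω → ℝ}
      {U : Sym2 Ω → ℝ}, Wt w U → ∀ b : Ω → ι, (∀ x y, b x ≠ b y → 1 + U s(x, y) = 0) →
      (∀ i, (∃ x, b x = i) → ∀ (w' : {x // b x = i} → ℝ) (U' : Sym2 {x // b x = i} → ℝ),
        (∀ x, w' x * (∑ y ∈ univ.filter (fun y => b y = i), w y) = w x.1) →
        (∀ e, 1 + U' e =
          (∑ y ∈ univ.filter (fun y => b y = i), w y) * (1 + U (e.map Subtype.val))) →
        Wt w' U' → Ent H w' U') → Ent H w U)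
    (h7 : ∀ {Ω : Type} [Fintype Ω] [DecidableEq Ω] {w : Ω → ℝ} {U : Sym2 Ω → ℝ}, Wt w U →
      (∀ e, U e ≤ η) → Ent H w U)
    (W : X → X → ℝ) (hs : ∀ x y, W x y = W y x) (h0 : ∀ x y, 0 ≤ W x y)
    (hd : ∀ x, 0 < Vale.Agent.P050.R2.H111.dgr W x) (b : X → ι)
    (hb : ∀ x y, b x ≠ b y → W x y = 0)
    (hcl : ∀ x y, b x = b y → W x y * (∑ a ∈ univ.filter (fun a => b a = b x),
      ∑ c ∈ univ.filter (fun c => b c = b x), W a c) ≤
        (1 + η) * ((∑ c, W x c) * ∑ c, W y c)) :
    pden W ^ H.edgeFinset.card ≤ tden H W hs := by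
  have hwt := Vale.Agent.P050.R2.H111.Red3.wt_UU W hs h0 hd
  have hE : Ent H (Vale.Agent.P050.R2.H111.pi0 W) (Vale.Agent.P050.R2.H111.UU W hs) := by
    refine h6 hwt b (fun x y hxy => ?_) fun i hi w' U' hw' hU' hwt' => ?_
    · rw [Vale.Agent.P050.R2.H111.UU_mk]
      unfold Vale.Agent.P050.R2.H111.KK
      rw [hb x y hxy, zero_mul, zero_div]
      norm_num
    · refine h7 hwt' fun e => ?_
      induction e using Sym2.ind with
      | _ x y =>
        have h1 := hU' s(x, y)
        rw [Sym2.map_mk, Vale.Agent.P050.R2.H111.UU_mk] at h1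
        have hx := x.2
        have hy := y.2
        have h3 : ∑ y ∈ univ.filter (fun y => b y = i), Vale.Agent.P050.R2.H111.pi0 W y =
            (∑ a ∈ univ.filter (fun a => b a = i),
              ∑ c ∈ univ.filter (fun c => b c = i), W a c) /
              Vale.Agent.P050.R2.H111.tot W := by
          rw [Finset.sum_div]
          refine Finset.sum_congr rfl fun a ha => ?_
          rw [← dgr_block b hb i a (Finset.mem_filter.1 ha).2]
          rfl
        have h4 := hcl x.1 y.1 (by rw [hx, hy])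
        rw [hx] at h4
        have hT := Vale.Agent.P050.R2.H111.tot_pos hd
        have hdx := hd x.1
        have hdy := hd y.1
        rw [h3] at h1
        have h5 : 1 + U' s(x, y) = W x.1 y.1 * (∑ a ∈ univ.filter (fun a => b a = i),
            ∑ c ∈ univ.filter (fun c => b c = i), W a c) /
            (Vale.Agent.P050.R2.H111.dgr W x.1 * Vale.Agent.P050.R2.H111.dgr W y.1) := by
          rw [h1]
          unfold Vale.Agent.P050.R2.H111.KK
          field_simp
          ring
        have h6' : 1 + U' s(x, y) ≤ 1 + η := by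
          rw [h5, div_le_iff₀ (mul_pos hdx hdy)]
          exact h4
        linarith
  have h2 := H612.one_le_of_ent hwt hE (Vale.Agent.P050.R2.H111.rr_pos hd)
    (Vale.Agent.P050.R2.H111.Red3.sum_rr_inv W hd) fun v => H.degree v - 1
  have hp0 : 0 ≤ pden W := by
    unfold pden
    exact div_nonneg (Finset.sum_nonneg fun x _ => Finset.sum_nonneg fun y _ => h0 x y)
      (by positivity)
  rw [Vale.Agent.P050.R2.H111.Red3.redAll W hs hd H]
  calc pden W ^ H.edgeFinset.card = pden W ^ H.edgeFinset.card * 1 := (mul_one _).symm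
    _ ≤ _ := mul_le_mul_of_nonneg_left h2 (pow_nonneg hp0 _)

/-- **Block diagonal kernels** whose blocks are dominated by a kernel of rank one. -/
theorem block_rank1_of {V X ι : Type} [Fintype V] [DecidableEq V] [Fintype X] [DecidableEq X]
    [Nonempty X] [Fintype ι] [DecidableEq ι] (H : SimpleGraph V) [DecidableRel H.Adj] {η : ℝ}
    (h6 : ∀ {Ω ι : Type} [Fintype Ω] [DecidableEq Ω] [Fintype ι] [DecidableEq ι] {w : Ω → ℝ}
      {U : Sym2 Ω → ℝ}, Wt w U → ∀ b : Ω → ι, (∀ x y, b x ≠ b y → 1 + U s(x, y) = 0) →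
      (∀ i, (∃ x, b x = i) → ∀ (w' : {x // b x = i} → ℝ) (U' : Sym2 {x // b x = i} → ℝ),
        (∀ x, w' x * (∑ y ∈ univ.filter (fun y => b y = i), w y) = w x.1) →
        (∀ e, 1 + U' e =
          (∑ y ∈ univ.filter (fun y => b y = i), w y) * (1 + U (e.map Subtype.val))) →
        Wt w' U' → Ent H w' U') → Ent H w U)
    (h7 : ∀ {Ω : Type} [Fintype Ω] [DecidableEq Ω] {w : Ω → ℝ} {U : Sym2 Ω → ℝ}, Wt w U →
      (∀ e, U e ≤ η) → Ent H w U)
    (W : X → X → ℝ) (hs : ∀ x y, W x y = W y x) (h0 : ∀ x y, 0 ≤ W x y) (b : X → ι)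
    (hb : ∀ x y, b x ≠ b y → W x y = 0)
    (hcl : ∀ x y, b x = b y → W x y * (∑ a ∈ univ.filter (fun a => b a = b x),
      ∑ c ∈ univ.filter (fun c => b c = b x), W a c) ≤
        (1 + η) * ((∑ c, W x c) * ∑ c, W y c)) :
    pden W ^ H.edgeFinset.card ≤ tden H W hs := by
  refine H322.pos_rows H W hs h0 fun hN => ?_
  refine block_pos H h6 h7 (H322.rst W) (H322.rst_symm hs) (fun x y => h0 _ _) (fun x => ?_)
    (fun x => b x.1) (fun x y h => hb _ _ h) fun x y hxy => ?_
  · show 0 < ∑ y, H322.rst W x y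
    rw [H322.sum_rst_row hs h0]
    exact x.2
  · rw [H322.sum_rst_row hs h0, H322.sum_rst_row hs h0]
    have h1 : ∀ a : H322.Ps W, ∑ c ∈ univ.filter (fun c : H322.Ps W => b c.1 = b x.1),
        H322.rst W a c = ∑ c ∈ univ.filter (fun c => b c = b x.1), W a.1 c := fun a =>
      sum_filter_Ps b (b x.1) (fun c => W a.1 c) fun c hc => by
        rw [hs]; exact H322.eq_zero_of_row h0 hc _
    have h2 : ∑ a ∈ univ.filter (fun a : H322.Ps W => b a.1 = b x.1),
        ∑ c ∈ univ.filter (fun c : H322.Ps W => b c.1 = b x.1), H322.rst W a c =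
        ∑ a ∈ univ.filter (fun a => b a = b x.1), ∑ c ∈ univ.filter (fun c => b c = b x.1),
          W a c := by
      rw [Finset.sum_congr rfl fun a _ => h1 a]
      exact sum_filter_Ps b (b x.1)
        (fun a => ∑ c ∈ univ.filter (fun c => b c = b x.1), W a c) fun a ha =>
          Finset.sum_eq_zero fun c _ => H322.eq_zero_of_row h0 ha c
    have h3 := hcl x.1 y.1 hxy
    rw [← h2] at h3
    exact h3

end H694

end Vale.Agent.P050.Opt
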