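import Vale.Agent.P050.O.H694.EntSidOf
import Vale.Agent.P050.O.H602.SidTypFin

set_option linter.all false

/-!
Sidorenko graphs satisfy `Ent`.
-/

open MeasureTheory Finset

namespace Vale.Agent.P050.Opt

open Vale.Agent.P050 Vale.Agent.P050.Dense

/-- F4: Sidorenko graphs satisfy `Ent` for all weights and kernels -/
theorem ent_sid {V : Type} [Fintype V] [DecidableEq V] {Ω : Type} [Fintype Ω] [DecidableEq Ω]
    {H : SimpleGraph V} (hH : IsSidorenko H) {w : Ω → ℝ} {U : Sym2 Ω → ℝ}
    (hw : Wt w U) : Ent H w U :=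
  H694.ent_sid_of_typical hw fun hδ => sid_typical hH hw hδ

end Vale.Agent.P050.Opt
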