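import Vale.Agent.P050.O.H694.EntSid
import Vale.Agent.P050.O.H111.Types
import Vale.Agent.P050.O.H612.Approx

set_option linter.all false

/-!
Sidorenko graphs satisfy `Ent`, from the typical sequences.
-/

open MeasureTheory Finset

namespace Vale.Agent.P050.Opt.H694

open Vale.Agent.P050 Vale.Agent.P050.Dense Vale.Agent.P050.Opt

theorem ent_sid_of_typical {V : Type} [Fintype V] [DecidableEq V] {Ω : Type} [Fintype Ω]
    [DecidableEq Ω] {H : SimpleGraph V} {w : Ω → ℝ} {U : Sym2 Ω → ℝ} (hw : Wt w U)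
    (h1 : F1 H w U) : Ent H w U :=
  ent_sid_of hw h1 (fun m hm _ hN P _ hc h => types_law m hm hN P hc h) H612.ent_of_approx

end Vale.Agent.P050.Opt.H694
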