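import Vale.Agent.P050.O.H694.Forest
import Vale.Agent.P050.O.H111.EntGlue
import Vale.Agent.P050.O.H625.Asm

set_option linter.all false

/-!
Graphs assembled from Sidorenko graphs alone: `Ent` for all weights and kernels.
-/

open MeasureTheory Finset

namespace Vale.Agent.P050.Opt

open Vale.Agent.P050 Vale.Agent.P050.Dense

namespace H694

/-- graphs without edges -/
theorem ent_bot {V : Type*} [Fintype V] [DecidableEq V] {Ω : Type*} [Fintype Ω] [DecidableEq Ω]
    {H : SimpleGraph V} (hH : ∀ u v, ¬ H.Adj u v) {w : Ω → ℝ} {U : Sym2 Ω → ℝ}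
    (hw : Wt w U) : Ent H w U := by
  classical
  have hm : ∀ z : V → Ω, mH H w U z = ∏ v, w (z v) := by
    intro z
    rw [mH_eq H w U z ∅]
    · simp
    · intro e
      simp only [Finset.notMem_empty, false_iff]
      induction e using Sym2.ind with
      | _ a b => exact hH a b
  refine ⟨fun z => ∏ v, w (z v), fun z => Finset.prod_nonneg fun v _ => (hw.pos _).le,
    sum_prod_w hw.sum, ?_, ?_, ?_⟩
  · intro v s
    have h1 : ∀ z : V → Ω, (∏ x, w (z x)) = w (z v) * ∏ x ∈ univ.erase v, w (z x) := fun z =>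
      (Finset.mul_prod_erase univ _ (Finset.mem_univ v)).symm
    rw [Finset.sum_filter, sum_update v _ hw.sum]
    have h2 : ∀ z : V → Ω, ∑ t, (if Function.update z v t v = s then
        ∏ x, w (Function.update z v t x) else 0) = w s * ∏ x ∈ univ.erase v, w (z x) := by
      intro z
      have h3 : ∀ t, (if Function.update z v t v = s then
          ∏ x, w (Function.update z v t x) else 0) =
          if t = s then w s * ∏ x ∈ univ.erase v, w (z x) else 0 := by
        intro t
        rw [Function.update_self]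
        by_cases hts : t = s
        · subst hts
          rw [if_pos rfl, if_pos rfl, h1, Function.update_self]
          congr 1
          exact Finset.prod_congr rfl fun x hx => by
            rw [Function.update_of_ne (Finset.ne_of_mem_erase hx)]
        · rw [if_neg hts, if_neg hts]
      rw [Finset.sum_congr rfl fun t _ => h3 t, Finset.sum_ite_eq' univ s]
      simp
    rw [Finset.sum_congr rfl fun z _ => by rw [h2 z]]
    have h4 : ∀ z : V → Ω, w (z v) * (w s * ∏ x ∈ univ.erase v, w (z x)) =
        w s * ∏ x, w (z x) := by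
      intro z
      rw [h1 z]
      ring
    rw [Finset.sum_congr rfl fun z _ => h4 z, ← Finset.mul_sum, sum_prod_w hw.sum, mul_one]
  · intro z hz
    show ∏ v, w (z v) = 0
    rw [← hm z]
    exact hz
  · refine le_of_eq (Finset.sum_eq_zero fun z _ => ?_)
    have hpos : (0:ℝ) < ∏ v, w (z v) := Finset.prod_pos fun v _ => hw.pos _
    show (∏ v, w (z v)) * Real.log ((∏ v, w (z v)) / mH H w U z) = 0
    rw [hm z, div_self hpos.ne', Real.log_one, mul_zero]

/-- graphs assembled from Sidorenko graphs alone, from `ent_sid` and `ent_tree` -/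
theorem ent_asm0_of {V Ω : Type} [Fintype Ω] [DecidableEq Ω] {w : Ω → ℝ}
    {U : Sym2 Ω → ℝ} (hw : Wt w U)
    (hsid : ∀ (V : Type) [Fintype V] [DecidableEq V] (H : SimpleGraph V), IsSidorenko H →
      Ent H w U)
    (htree : ∀ (V₀ V : Type) [Fintype V₀] [DecidableEq V₀] [Fintype V] [DecidableEq V]
      (H : SimpleGraph V₀) (n : ℕ) (f : Fin (n + 1) → V₀ ↪ V),
      (∀ i, i ≠ 0 → ∃ j < i, ∃ S : Set V₀, (H.induce S).IsAcyclic ∧ (∀ u ∈ S, f i u = f j u) ∧
        ∀ u ∉ S, ∀ l < i, ∀ v, f l v ≠ f i u) →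
      (∀ x, ∃ i u, f i u = x) → Ent H w U → Ent (⨆ i, H.map (f i)) w U)
    {H : SimpleGraph V} (h : Assembled 0 V H) :
    ∀ [Fintype V] [DecidableEq V], Ent H w U := by
  refine ent_asm_of (D := 0) (w := w) (U := U) ?_ hsid ?_ htree h
  · intro V _ _ H _ hD
    refine ent_bot (fun u v huv => ?_) hw
    have h1 := hD u
    have h2 : (H.neighborSet u) = ∅ := by
      have h3 : (H.neighborSet u).ncard = 0 := Nat.le_zero.1 h1
      exact (Set.ncard_eq_zero (Set.toFinite _)).1 h3
    have h4 : v ∈ H.neighborSet u := huv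
    rw [h2] at h4
    exact h4
  · intro V₁ V₂ V _ _ _ _ _ _ H₁ H₂ f₁ f₂ h hc e1 e2
    exact ent_glue H₁ H₂ f₁ f₂ h hc hw e1 e2

end H694

end Vale.Agent.P050.Opt
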