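import Vale.Agent.P050.O.H322.BipCL

set_option linter.all false

/-!
Block diagonal kernels: the inequality for the blocks gives the inequality (connected graphs).
-/

open Finset

namespace Vale.Agent.P050.Opt.H694

open Vale.Agent.P050 Vale.Agent.P050.Dense

/-- the inequality for the blocks (Jensen) -/
theorem blocks_real {ι : Type} (s : Finset ι) (T n : ι → ℝ) (hT : ∀ i ∈ s, 0 ≤ T i)
    (hn : ∀ i ∈ s, 0 < n i) {N : ℝ} (hN : ∑ i ∈ s, n i = N) (hNp : 0 < N) (e r : ℕ) :
    (∑ i ∈ s, T i) ^ (e + 1) / N ^ (e + r) ≤ ∑ i ∈ s, T i ^ (e + 1) / n i ^ (e + r) := by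
  have h1 := Real.pow_arith_mean_le_arith_mean_pow s (fun i => n i / N) (fun i => T i / n i)
    (fun i hi => div_nonneg (hn i hi).le hNp.le) (by rw [← Finset.sum_div, hN, div_self hNp.ne'])
    (fun i hi => div_nonneg (hT i hi) (hn i hi).le) (e + 1)
  have h2 : ∑ i ∈ s, n i / N * (T i / n i) = (∑ i ∈ s, T i) / N := by
    rw [Finset.sum_div]
    refine Finset.sum_congr rfl fun i hi => ?_
    have := (hn i hi).ne'
    field_simp
  rw [h2] at h1
  have h3 : (∑ i ∈ s, T i) ^ (e + 1) / N ^ (e + r) =
      ((∑ i ∈ s, T i) / N) ^ (e + 1) * (N / N ^ r) := by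
    rw [div_pow, pow_add N e r, pow_succ N e]
    field_simp
  rw [h3]
  calc ((∑ i ∈ s, T i) / N) ^ (e + 1) * (N / N ^ r)
      ≤ (∑ i ∈ s, n i / N * (T i / n i) ^ (e + 1)) * (N / N ^ r) :=
        mul_le_mul_of_nonneg_right h1 (by positivity)
    _ = ∑ i ∈ s, T i ^ (e + 1) / n i ^ e / N ^ r := by
        rw [Finset.sum_mul]
        refine Finset.sum_congr rfl fun i hi => ?_
        have := (hn i hi).ne'
        rw [div_pow, pow_succ (n i) e]
        field_simp
    _ ≤ ∑ i ∈ s, T i ^ (e + 1) / n i ^ (e + r) := by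
        refine Finset.sum_le_sum fun i hi => ?_
        have h4 := hn i hi
        have h5 : n i ≤ N := by
          rw [← hN]
          exact Finset.single_le_sum (f := n) (fun j hj => (hn j hj).le) hi
        rw [pow_add (n i) e r, ← div_div]
        exact div_le_div_of_nonneg_left (div_nonneg (pow_nonneg (hT i hi) _)
          (pow_nonneg h4.le _)) (pow_pos h4 _) (pow_le_pow_left₀ h4.le h5 _)

/-- sums over the blocks -/
theorem sum_blocks {X ι : Type} [Fintype X] [DecidableEq ι] (b : X → ι) (f : X → ℝ) :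
    ∑ x, f x = ∑ i ∈ univ.image b, ∑ x : {x // b x = i}, f x.1 := by
  classical
  rw [← Finset.sum_fiberwise_of_maps_to (s := univ) (t := univ.image b) (g := b)
    (fun x _ => Finset.mem_image_of_mem b (Finset.mem_univ x))]
  refine Finset.sum_congr rfl fun i _ => ?_
  exact Finset.sum_subtype _ (fun x => by simp) f

/-- a function which is constant along the edges of a connected graph is constant -/
theorem const_of_conn {V ι : Type} {H : SimpleGraph V} (hc : H.Connected) {f : V → ι}
    (h : ∀ u w, H.Adj u w → f u = f w) (u v : V) : f u = f v := by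
  obtain ⟨p⟩ := hc.preconnected u v
  induction p with
  | nil => rfl
  | cons h1 p ih => exact (h _ _ h1).trans ih

/-- the homomorphism sum of a block diagonal kernel -/
theorem sum_hom_blocks {V X ι : Type} [Fintype V] [DecidableEq V] [Fintype X] [DecidableEq ι]
    (H : SimpleGraph V) [DecidableRel H.Adj] (hc : H.Connected) (W : X → X → ℝ)
    (hs : ∀ x y, W x y = W y x) (b : X → ι) (hb : ∀ x y, b x ≠ b y → W x y = 0) :
    ∑ z : V → X, ∏ e ∈ H.edgeFinset, ev W hs z e =
      ∑ i ∈ univ.image b, ∑ z : V → {x // b x = i}, ∏ e ∈ H.edgeFinset,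
        ev (fun x y : {x // b x = i} => W x.1 y.1) (fun x y => hs x.1 y.1) z e := by
  classical
  obtain ⟨v0⟩ := hc.nonempty
  rw [← Finset.sum_fiberwise_of_maps_to (s := univ) (t := univ.image b)
    (g := fun z : V → X => b (z v0))
    (fun z _ => Finset.mem_image_of_mem b (Finset.mem_univ (z v0)))]
  refine Finset.sum_congr rfl fun i _ => ?_
  symm
  refine Finset.sum_of_injOn (fun z v => (z v).1) ?_ ?_ ?_ ?_
  · intro z _ z' _ h
    funext v
    exact Subtype.ext (congrFun h v)
  · intro z _
    exact Finset.mem_coe.2 (Finset.mem_filter.2 ⟨Finset.mem_univ _, (z v0).2⟩)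
  · intro z hz hz'
    by_contra hne
    have hstep : ∀ u w, H.Adj u w → b (z u) = b (z w) := by
      intro u w huw
      by_contra h1
      apply hne
      refine Finset.prod_eq_zero (i := s(u, w)) (by
        rw [SimpleGraph.mem_edgeFinset, SimpleGraph.mem_edgeSet]; exact huw) ?_
      show W (z u) (z w) = 0
      exact hb _ _ h1
    have hall : ∀ v, b (z v) = i := by
      intro v
      rw [const_of_conn hc (f := fun v => b (z v)) hstep v v0]
      exact (Finset.mem_filter.1 hz).2
    apply hz'
    rw [Set.mem_image]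
    exact ⟨fun v => ⟨z v, hall v⟩, Finset.mem_coe.2 (Finset.mem_univ _), rfl⟩
  · intro z _
    refine Finset.prod_congr rfl fun e _ => ?_
    induction e using Sym2.ind with
    | _ u v => rfl

/-- **Blocks.** For a connected graph the inequality for the blocks gives the inequality. -/
theorem tden_of_blocks {V X ι : Type} [Fintype V] [DecidableEq V] [Fintype X] [Nonempty X]
    [DecidableEq ι] (H : SimpleGraph V) [DecidableRel H.Adj] (hc : H.Connected)
    (W : X → X → ℝ) (hs : ∀ x y, W x y = W y x) (h0 : ∀ x y, 0 ≤ W x y) (b : X → ι)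
    (hb : ∀ x y, b x ≠ b y → W x y = 0)
    (h : ∀ i, Nonempty {x // b x = i} →
      pden (fun x y : {x // b x = i} => W x.1 y.1) ^ H.edgeFinset.card ≤
        tden H (fun x y : {x // b x = i} => W x.1 y.1) (fun x y => hs x.1 y.1)) :
    pden W ^ H.edgeFinset.card ≤ tden H W hs := by
  classical
  rcases Nat.eq_zero_or_pos H.edgeFinset.card with hm | hm
  · rw [H322.tden_edgeless H hm, hm, pow_zero]
  obtain ⟨e, he⟩ : ∃ e, H.edgeFinset.card = e + 1 := ⟨H.edgeFinset.card - 1, by omega⟩
  have hve : Fintype.card V ≤ e + 2 := by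
    have h1 := hc.card_vert_le_card_edgeSet_add_one
    rw [Nat.card_eq_fintype_card, Nat.card_eq_fintype_card, ← SimpleGraph.edgeFinset_card,
      he] at h1
    omega
  obtain ⟨r, hr⟩ : ∃ r, e + 2 = Fintype.card V + r := ⟨e + 2 - Fintype.card V, by omega⟩
  rw [he] at h ⊢
  set v := Fintype.card V with hv
  set s : Finset ι := univ.image b with hs'
  set T : ι → ℝ := fun i => ∑ x : {x // b x = i}, ∑ y : {x // b x = i}, W x.1 y.1 with hTdef
  set n : ι → ℝ := fun i => (Fintype.card {x // b x = i} : ℝ) with hndef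
  set N : ℝ := (Fintype.card X : ℝ) with hNdef
  have hNp : 0 < N := by rw [hNdef]; exact_mod_cast Fintype.card_pos
  have hne : ∀ i ∈ s, Nonempty {x // b x = i} := by
    intro i hi
    obtain ⟨x, -, hx⟩ := Finset.mem_image.1 hi
    exact ⟨⟨x, hx⟩⟩
  have hn : ∀ i ∈ s, 0 < n i := by
    intro i hi
    have := hne i hi
    show (0:ℝ) < (Fintype.card {x // b x = i} : ℝ)
    exact_mod_cast Fintype.card_pos
  have hT : ∀ i ∈ s, 0 ≤ T i := fun i _ =>
    Finset.sum_nonneg fun x _ => Finset.sum_nonneg fun y _ => h0 _ _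
  have hN : ∑ i ∈ s, n i = N := by
    have h1 := sum_blocks b (fun _ => (1:ℝ))
    simp only [Finset.sum_const, Finset.card_univ, nsmul_eq_mul, mul_one] at h1
    exact h1.symm
  have hS : ∑ x, ∑ y, W x y = ∑ i ∈ s, T i := by
    rw [sum_blocks b (fun x => ∑ y, W x y)]
    refine Finset.sum_congr rfl fun i _ => Finset.sum_congr rfl fun x _ => ?_
    have h1 : ∑ y, W x.1 y = ∑ y ∈ univ.filter (fun y => b y = i), W x.1 y := by
      rw [Finset.sum_filter]
      refine Finset.sum_congr rfl fun y _ => ?_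
      by_cases hy : b y = i
      · rw [if_pos hy]
      · rw [if_neg hy]
        exact hb _ _ (by rw [x.2]; exact fun h' => hy h'.symm)
    rw [h1]
    exact Finset.sum_subtype _ (fun x => by simp) _
  have hkey := blocks_real s T n hT hn hN hNp e r
  unfold tden
  rw [sum_hom_blocks H hc W hs b hb]
  have hpd : pden W ^ (e + 1) = (∑ i ∈ s, T i) ^ (e + 1) / N ^ (e + r) / N ^ v := by
    unfold pden
    rw [hS, div_pow, ← pow_mul, div_div, ← pow_add]
    congr 2
    omega
  rw [hpd]
  refine div_le_div_of_nonneg_right (hkey.trans ?_) (pow_nonneg hNp.le _)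
  refine Finset.sum_le_sum fun i hi => ?_
  have h1 := h i (hne i hi)
  unfold tden at h1
  have h2 := hn i hi
  rw [le_div_iff₀ (pow_pos h2 v)] at h1
  refine le_trans (le_of_eq ?_) h1
  show T i ^ (e + 1) / n i ^ (e + r) = (T i / n i ^ 2) ^ (e + 1) * n i ^ v
  rw [div_pow, ← pow_mul]
  have h3 : 2 * (e + 1) = (e + r) + v := by omega
  rw [h3, pow_add (n i) (e + r) v]
  field_simp

end Vale.Agent.P050.Opt.H694
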