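import Vale.Agent.P050.O.H300.EntDefs

set_option linter.all false

/-!
The coupling of two sequences by the kernel `1 + U`.
-/

open MeasureTheory Finset

namespace Vale.Agent.P050.Opt.H694

open Vale.Agent.P050 Vale.Agent.P050.Dense Vale.Agent.P050.Opt

section

variable {Ω : Type*} [Fintype Ω] [DecidableEq Ω]

lemma seq_marg {w : Ω → ℝ} {U : Sym2 Ω → ℝ} (hw : Wt w U) {N : ℕ} (x : Fin N → Ω) :
    ∑ y : Fin N → Ω, (∏ i, w (x i)) * (∏ i, w (y i)) * ∏ i, (1 + U s(x i, y i)) =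
      ∏ i, w (x i) := by
  have h1 : ∀ s, ∑ t, w t * (1 + U s(s, t)) = 1 := by
    intro s
    have := hw.marg s
    have h2 := hw.sum
    simp only [mul_add, mul_one, Finset.sum_add_distrib]
    linarith
  have h := Finset.prod_univ_sum (fun _ : Fin N => (univ : Finset Ω))
    (fun i t => w t * (1 + U s(x i, t)))
  rw [Fintype.piFinset_univ] at h
  simp only [h1, Finset.prod_const_one] at h
  calc ∑ y : Fin N → Ω, (∏ i, w (x i)) * (∏ i, w (y i)) * ∏ i, (1 + U s(x i, y i))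
      = ∑ y : Fin N → Ω, (∏ i, w (x i)) * ∏ i, (w (y i) * (1 + U s(x i, y i))) := by
        refine Finset.sum_congr rfl fun y _ => ?_
        rw [Finset.prod_mul_distrib]
        ring
    _ = ∏ i, w (x i) := by
        rw [← Finset.mul_sum, ← h, mul_one]

lemma seq_total {w : Ω → ℝ} (hw : ∑ s, w s = 1) {N : ℕ} :
    ∑ x : Fin N → Ω, ∏ i, w (x i) = 1 := by
  have h := Finset.prod_univ_sum (fun _ : Fin N => (univ : Finset Ω)) (fun _ s => w s)
  rw [Fintype.piFinset_univ] at h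
  rw [← h]
  simp [hw]

theorem coupling {w : Ω → ℝ} {U : Sym2 Ω → ℝ} (hw : Wt w U) {N : ℕ} (T : Finset (Fin N → Ω))
    (hT : 3 / 4 ≤ ∑ x ∈ T, ∏ i, w (x i)) :
    1 / 2 ≤ ∑ x ∈ T, ∑ y ∈ T,
      (∏ i, w (x i)) * (∏ i, w (y i)) * ∏ i, (1 + U s(x i, y i)) := by
  classical
  set M : (Fin N → Ω) → (Fin N → Ω) → ℝ := fun x y =>
    (∏ i, w (x i)) * (∏ i, w (y i)) * ∏ i, (1 + U s(x i, y i)) with hM
  have hM0 : ∀ x y, 0 ≤ M x y := fun x y =>
    mul_nonneg (mul_nonneg (Finset.prod_nonneg fun i _ => (hw.pos _).le)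
      (Finset.prod_nonneg fun i _ => (hw.pos _).le)) (Finset.prod_nonneg fun i _ => hw.nn _)
  have hsym : ∀ x y, M x y = M y x := by
    intro x y
    simp only [hM]
    rw [mul_comm (∏ i, w (x i))]
    congr 1
    exact Finset.prod_congr rfl fun i _ => by rw [Sym2.eq_swap]
  have hrow : ∀ x, ∑ y, M x y = ∏ i, w (x i) := fun x => seq_marg hw x
  have hcol : ∀ y, ∑ x, M x y = ∏ i, w (y i) := by
    intro y
    rw [← hrow y]
    exact Finset.sum_congr rfl fun x _ => hsym x y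
  have htot := seq_total (N := N) hw.sum
  have hc : ∑ y ∈ Tᶜ, ∏ i, w (y i) ≤ 1 / 4 := by
    have := Finset.sum_add_sum_compl T (fun x : Fin N → Ω => ∏ i, w (x i))
    rw [htot] at this
    linarith
  have h1 : ∀ x, ∑ y, M x y = ∑ y ∈ T, M x y + ∑ y ∈ Tᶜ, M x y := fun x =>
    (Finset.sum_add_sum_compl T (fun y => M x y)).symm
  have h2 : ∑ x ∈ T, ∑ y ∈ Tᶜ, M x y ≤ 1 / 4 := by
    rw [Finset.sum_comm]
    refine le_trans (Finset.sum_le_sum fun y _ => ?_) hc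
    rw [← hcol y]
    exact Finset.sum_le_sum_of_subset_of_nonneg (Finset.subset_univ _) fun x _ _ => hM0 x y
  have h3 : ∑ x ∈ T, ∏ i, w (x i) = ∑ x ∈ T, ∑ y ∈ T, M x y + ∑ x ∈ T, ∑ y ∈ Tᶜ, M x y := by
    rw [← Finset.sum_add_distrib]
    exact Finset.sum_congr rfl fun x _ => by rw [← hrow x, h1 x]
  have h4 : ∑ x ∈ T, ∑ y ∈ T, M x y = ∑ x ∈ T, ∑ y ∈ T,
      (∏ i, w (x i)) * (∏ i, w (y i)) * ∏ i, (1 + U s(x i, y i)) := rfl
  rw [← h4]
  linarith

end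

end Vale.Agent.P050.Opt.H694
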