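import Vale.Agent.P050.O.H300.AsmDefs

set_option linter.all false

/-!
From typical sequences and types to the entropy form.
-/

open MeasureTheory Finset

namespace Vale.Agent.P050.Opt.H694

open Vale.Agent.P050 Vale.Agent.P050.Dense Vale.Agent.P050.Opt

section

variable {V : Type} [Fintype V] [DecidableEq V] {Ω : Type} [Fintype Ω] [DecidableEq Ω]

/-- the statement of F1 -/
def F1 (H : SimpleGraph V) (w : Ω → ℝ) (U : Sym2 Ω → ℝ) : Prop :=
  ∀ {δ : ℝ} (_ : 0 < δ),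
    ∀ᶠ N : ℕ in Filter.atTop, (1 / 2 : ℝ) ^ (Fintype.card V + Nat.card H.edgeSet) ≤
      ∑ Z : Fin N → (V → Ω), (open scoped Classical in
        if ∀ v s, |∑ z ∈ univ.filter (fun z : V → Ω => z v = s), emp Z z - w s| ≤ δ
        then ∏ i, mH H w U (Z i) else 0)

/-- the statement of F2 -/
def F2 : Prop :=
  ∀ {A : Type} [Fintype A] [DecidableEq A] (m : A → ℝ) (_ : ∀ a, 0 ≤ m a)
    {N : ℕ} (_ : 0 < N) (P : (A → ℝ) → Prop) {c : ℝ} (_ : 0 < c)
    (_ : c ≤ ∑ Z : Fin N → A, (open scoped Classical in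
      if P (emp Z) then ∏ i, m (Z i) else 0)),
    ∃ τ : A → ℝ, P τ ∧ (∀ a, 0 ≤ τ a) ∧ ∑ a, τ a = 1 ∧ (∀ a, m a = 0 → τ a = 0) ∧
      ∑ a, τ a * Real.log (τ a / m a) ≤
        (Fintype.card A * Real.log (N + 1) - Real.log c) / N

/-- the statement of F3 -/
def F3 (H : SimpleGraph V) (w : Ω → ℝ) (U : Sym2 Ω → ℝ) : Prop :=
  (∀ ε : ℝ, 0 < ε → ∃ g : (V → Ω) → ℝ, (∀ z, 0 ≤ g z) ∧ ∑ z, g z = 1 ∧
      (∀ v s, |∑ z ∈ univ.filter (fun z : V → Ω => z v = s), g z - w s| ≤ ε) ∧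
      (∀ z, mH H w U z = 0 → g z = 0) ∧ ∑ z, g z * Real.log (g z / mH H w U z) ≤ ε) →
    Ent H w U

lemma mH_nonneg {H : SimpleGraph V} {w : Ω → ℝ} {U : Sym2 Ω → ℝ} (hw : Wt w U)
    (z : V → Ω) : 0 ≤ mH H w U z := by
  classical
  unfold mH
  exact mul_nonneg (Finset.prod_nonneg fun v _ => (hw.pos _).le)
    (Finset.prod_nonneg fun e _ => hw.nn _)

lemma tendsto_bound (a b : ℝ) :
    Filter.Tendsto (fun N : ℕ => (a * Real.log ((N:ℝ) + 1) - b) / N) Filter.atTop (nhds 0) := by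
  have h1 : Filter.Tendsto (fun x : ℝ => Real.log x / x) Filter.atTop (nhds 0) := by
    have := Real.isLittleO_log_id_atTop.tendsto_div_nhds_zero
    simpa using this
  have h2 : Filter.Tendsto (fun N : ℕ => ((N:ℝ) + 1)) Filter.atTop Filter.atTop :=
    Filter.tendsto_atTop_add_const_right _ _ tendsto_natCast_atTop_atTop
  have h3 := h1.comp h2
  have h4 : Filter.Tendsto (fun N : ℕ => ((N:ℝ) + 1) / N) Filter.atTop (nhds 1) := by
    have h5 : Filter.Tendsto (fun N : ℕ => 1 + (1:ℝ) / N) Filter.atTop (nhds (1 + 0)) :=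
      tendsto_const_nhds.add tendsto_one_div_atTop_nhds_zero_nat
    rw [add_zero] at h5
    refine h5.congr' ?_
    filter_upwards [Filter.eventually_gt_atTop 0] with N hN
    have : (N:ℝ) ≠ 0 := by positivity
    field_simp
  have h6 : Filter.Tendsto (fun N : ℕ => b * ((1:ℝ) / N)) Filter.atTop (nhds (b * 0)) :=
    tendsto_one_div_atTop_nhds_zero_nat.const_mul b
  have h7 := ((h3.mul h4).const_mul a).sub h6
  simp only [mul_one, mul_zero, sub_zero, zero_mul] at h7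
  refine h7.congr' ?_
  filter_upwards [Filter.eventually_gt_atTop 0] with N hN
  have hN1 : (N:ℝ) ≠ 0 := by positivity
  have hN2 : (N:ℝ) + 1 ≠ 0 := by positivity
  simp only [Function.comp]
  field_simp

/-- F4 from F1, F2, F3 -/
theorem ent_sid_of {H : SimpleGraph V} {w : Ω → ℝ} {U : Sym2 Ω → ℝ} (hw : Wt w U)
    (h1 : F1 H w U) (h2 : F2) (h3 : F3 H w U) : Ent H w U := by
  classical
  refine h3 fun ε hε => ?_
  set c : ℝ := (1 / 2 : ℝ) ^ (Fintype.card V + Nat.card H.edgeSet) with hc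
  have hcpos : 0 < c := by positivity
  have hlim := tendsto_bound (Fintype.card (V → Ω) : ℝ) (Real.log c)
  have hev := hlim.eventually (gt_mem_nhds hε)
  obtain ⟨N, hN, hNε, hN0⟩ := ((h1 hε).and (hev.and (Filter.eventually_gt_atTop 0))).exists
  obtain ⟨τ, hP, hτ0, hτ1, hτs, hτe⟩ := h2 (mH H w U) (mH_nonneg hw) hN0
    (fun τ => ∀ v s, |∑ z ∈ univ.filter (fun z : V → Ω => z v = s), τ z - w s| ≤ ε) hcpos
    (by
      refine hN.trans (le_of_eq ?_)
      refine Finset.sum_congr rfl fun Z _ => ?_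
      congr)
  exact ⟨τ, hτ0, hτ1, hP, hτs, hτe.trans hNε.le⟩

end

end Vale.Agent.P050.Opt.H694
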