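import Vale.Agent.P050.O.H738.CrossLimit
import Vale.Agent.P050.O.H774.LongSub

set_option linter.all false

/-!
All large powers of a kernel join each class to one class only, and are close to kernels of rank
one between the classes.
-/

open Finset

namespace Vale.Agent.P050.Opt.H694

open Vale.Agent.P050 Vale.Agent.P050.Dense

theorem kpow_cls {X : Type} [Fintype X] [DecidableEq X] [Nonempty X] (W : X → X → ℝ)
    (hs : ∀ x y, W x y = W y x) (h0 : ∀ x y, 0 ≤ W x y) {η : ℝ} (hη : 0 < η) :
    ∃ L : ℕ, 1 ≤ L ∧ ∀ m ≥ L,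
      (∀ x x1 y y1, H774.cls (Matrix.of W) x = H774.cls (Matrix.of W) x1 → kpow W m x y ≠ 0 →
        kpow W m x1 y1 ≠ 0 → H774.cls (Matrix.of W) y = H774.cls (Matrix.of W) y1) ∧
      (∀ x y, kpow W m x y * (∑ a ∈ univ.filter
        (fun a => H774.cls (Matrix.of W) a = H774.cls (Matrix.of W) x), ∑ c, kpow W m a c) ≤
        (1 + η) * ((∑ c, kpow W m x c) * ∑ c, kpow W m y c)) := by
  classical
  set A : Matrix X X ℝ := Matrix.of W with hA
  have hsA : ∀ x y, A x y = A y x := fun x y => hs x y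
  have h0A : ∀ x y, 0 ≤ A x y := fun x y => h0 x y
  obtain ⟨k0, hk0⟩ := H738NB.cross_limit A hsA h0A hη
  refine ⟨max k0 1, le_max_right _ _, fun m hm => ?_⟩
  have hmk : k0 ≤ m := le_trans (le_max_left _ _) hm
  have hn : (0:ℝ) < (Fintype.card X : ℝ) ^ (m - 1) := by
    have := Fintype.card_pos (α := X)
    positivity
  set N : ℝ := (Fintype.card X : ℝ) ^ (m - 1) with hN
  have hK : ∀ x y, kpow W m x y = (A ^ m) x y / N := fun x y => rfl
  have hAnn := H774.pow_entry_nonneg h0A m
  have hne : ∀ x y, kpow W m x y ≠ 0 → 0 < (A ^ m) x y := fun x y h =>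
    lt_of_le_of_ne (hAnn x y) fun h' => h (by rw [hK, ← h', zero_div])
  have h2 : ∀ x x1 y y1, H774.Rel A x x1 → 0 < (A ^ m) x y → 0 < (A ^ m) x1 y1 →
      H774.Rel A y y1 := by
    rintro x x1 y y1 ⟨j, hj⟩ h1 h3
    refine ⟨m + j, ?_⟩
    have e : 2 * (m + j) = m + (2 * j + m) := by ring
    rw [e, pow_add, Matrix.mul_apply]
    refine lt_of_lt_of_le ?_ (Finset.single_le_sum
      (f := fun t => (A ^ m) y t * (A ^ (2 * j + m)) t y1)
      (fun t _ => mul_nonneg (hAnn _ _) (H774.pow_entry_nonneg h0A _ _ _))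
      (Finset.mem_univ x))
    refine mul_pos (by rw [H774.pow_entry_symm hsA]; exact h1) ?_
    rw [pow_add, Matrix.mul_apply]
    exact lt_of_lt_of_le (mul_pos hj h3) (Finset.single_le_sum
      (f := fun t => (A ^ (2 * j)) x t * (A ^ m) t y1)
      (fun t _ => mul_nonneg (H774.pow_entry_nonneg h0A _ _ _) (hAnn _ _))
      (Finset.mem_univ x1))
  constructor
  · intro x x1 y y1 h h' h''
    rw [H774.cls_eq_iff hsA h0A] at h ⊢
    exact H774.rel_symm hsA (h2 x x1 y y1 (H774.rel_symm hsA h) (hne _ _ h') (hne _ _ h''))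
  · intro x y
    have hrow : ∀ z, ∑ c, kpow W m z c = (∑ c, (A ^ m) z c) / N := fun z => by
      rw [Finset.sum_div]
      exact Finset.sum_congr rfl fun c _ => hK z c
    have hmain : (A ^ m) x y * (∑ a ∈ univ.filter
        (fun a => H774.cls A a = H774.cls A x), ∑ c, (A ^ m) a c) ≤
        (1 + η) * ((∑ c, (A ^ m) x c) * ∑ c, (A ^ m) y c) := by
      have h4 : ∀ a ∈ univ.filter (fun a => H774.cls A a = H774.cls A x), ∀ c,
          (A ^ m) x y * (A ^ m) a c ≤ (1 + η) * ((A ^ m) x c * (A ^ m) y a) := by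
        intro a ha c
        have hr : H774.Rel A x a := (H774.cls_eq_iff hsA h0A).1 (Finset.mem_filter.1 ha).2
        rw [H774.pow_entry_symm hsA m y a]
        rcases (hAnn x y).eq_or_lt with h5 | h5
        · rw [← h5, zero_mul]
          exact mul_nonneg (by linarith) (mul_nonneg (hAnn _ _) (hAnn _ _))
        · rcases (hAnn a c).eq_or_lt with h6 | h6
          · rw [← h6, mul_zero]
            exact mul_nonneg (by linarith) (mul_nonneg (hAnn _ _) (hAnn _ _))
          · exact hk0 m hmk x a y c hr (h2 x a y c hr h5 h6)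
      calc (A ^ m) x y * (∑ a ∈ univ.filter
            (fun a => H774.cls A a = H774.cls A x), ∑ c, (A ^ m) a c)
          = ∑ a ∈ univ.filter (fun a => H774.cls A a = H774.cls A x),
              ∑ c, (A ^ m) x y * (A ^ m) a c := by
            rw [Finset.mul_sum]
            exact Finset.sum_congr rfl fun a _ => Finset.mul_sum _ _ _
        _ ≤ ∑ a ∈ univ.filter (fun a => H774.cls A a = H774.cls A x),
              ∑ c, (1 + η) * ((A ^ m) x c * (A ^ m) y a) :=
            Finset.sum_le_sum fun a ha => Finset.sum_le_sum fun c _ => h4 a ha c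
        _ ≤ ∑ a, ∑ c, (1 + η) * ((A ^ m) x c * (A ^ m) y a) :=
            Finset.sum_le_sum_of_subset_of_nonneg (Finset.filter_subset _ _)
              fun a _ _ => Finset.sum_nonneg fun c _ =>
                mul_nonneg (by linarith) (mul_nonneg (hAnn _ _) (hAnn _ _))
        _ = (1 + η) * ((∑ c, (A ^ m) x c) * ∑ c, (A ^ m) y c) := by
            rw [Finset.sum_mul_sum, Finset.mul_sum, Finset.sum_comm]
            refine Finset.sum_congr rfl fun c _ => ?_
            rw [Finset.mul_sum]
    have h5 : ∑ a ∈ univ.filter (fun a => H774.cls A a = H774.cls A x), ∑ c, kpow W m a c =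
        (∑ a ∈ univ.filter (fun a => H774.cls A a = H774.cls A x), ∑ c, (A ^ m) a c) / N := by
      rw [Finset.sum_div]
      exact Finset.sum_congr rfl fun a _ => hrow a
    rw [h5, hrow, hrow, hK, div_mul_div_comm]
    have h6 : (1 + η) * ((∑ c, (A ^ m) x c) / N * ((∑ c, (A ^ m) y c) / N)) =
        ((1 + η) * ((∑ c, (A ^ m) x c) * ∑ c, (A ^ m) y c)) / (N * N) := by
      rw [div_mul_div_comm]
      ring
    rw [h6]
    exact div_le_div_of_nonneg_right hmain (mul_pos hn hn).le

end Vale.Agent.P050.Opt.H694
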